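import Mathlib

/-!
P015: Gaussian-prime-free disks centred at points of recurrent sets (polynomial curves).
-/

namespace Vale.Agent.P015

open Polynomial

lemma finite_norm_le (K : ℤ) : {z : GaussianInt | Zsqrtd.norm z ≤ K}.Finite := by
  have hsub : {z : GaussianInt | Zsqrtd.norm z ≤ K} ⊆
      (fun p : ℤ × ℤ => (⟨p.1, p.2⟩ : GaussianInt)) '' (Set.Icc (-K) K ×ˢ Set.Icc (-K) K) := by
    intro z hz
    simp only [Set.mem_ofPred_eq, Zsqrtd.norm_def] at hz
    refine ⟨(z.re, z.im), ?_, rfl⟩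
    simp only [Set.mem_prod, Set.mem_Icc]
    have h1 : z.re * z.re + z.im * z.im ≤ K := by linarith
    refine ⟨⟨?_, ?_⟩, ⟨?_, ?_⟩⟩
    · by_contra h
      push Not at h
      nlinarith [mul_self_nonneg z.im, mul_self_nonneg (z.re + 1), mul_self_nonneg z.re]
    · by_contra h
      push Not at h
      nlinarith [mul_self_nonneg z.im, mul_self_nonneg (z.re - 1), mul_self_nonneg z.re]
    · by_contra h
      push Not at h
      nlinarith [mul_self_nonneg z.re, mul_self_nonneg (z.im + 1), mul_self_nonneg z.im]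
    · by_contra h
      push Not at h
      nlinarith [mul_self_nonneg z.re, mul_self_nonneg (z.im - 1), mul_self_nonneg z.im]
  exact Set.Finite.subset (Set.Finite.image _ ((Set.finite_Icc _ _).prod (Set.finite_Icc _ _))) hsub

lemma finite_shift (w : GaussianInt) (K : ℤ) : {b : GaussianInt | Zsqrtd.norm (b + w) ≤ K}.Finite := by
  have := (finite_norm_le K).preimage (f := fun b : GaussianInt => b + w)
    (fun x _ y _ h => by simpa using h)
  exact this

/-- Prime-free disks at infinitely many points of a recurrent set. -/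
theorem disc (A : Set GaussianInt) (hA : A.Infinite)
    (hrec : ∀ a ∈ A, ∀ Q : ℕ, 0 < Q → {b | b ∈ A ∧ (Q : GaussianInt) ∣ b - a}.Infinite) (K : ℤ) :
    {b | b ∈ A ∧ ∀ z : GaussianInt, Zsqrtd.norm (z - b) ≤ K → ¬ Irreducible z}.Infinite := by
  classical
  set W : Finset GaussianInt := (finite_norm_le K).toFinset with hW
  have hfin1 : (⋃ w ∈ W, {b : GaussianInt | Zsqrtd.norm (b + w) ≤ 1}).Finite :=
    W.finite_toSet.biUnion (fun w _ => finite_shift w 1)
  obtain ⟨a, haA, ha⟩ := (hA.sdiff hfin1).nonempty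
  have ha1 : ∀ w ∈ W, 1 < Zsqrtd.norm (a + w) := by
    intro w hw
    by_contra h
    push Not at h
    exact ha (Set.mem_iUnion₂.2 ⟨w, hw, h⟩)
  set Q : ℕ := ∏ w ∈ W, (Zsqrtd.norm (a + w)).natAbs with hQ
  have hQpos : 0 < Q := Finset.prod_pos (fun w hw => by
    have := ha1 w hw
    omega)
  have hfin2 : (⋃ w ∈ W, {b : GaussianInt | Zsqrtd.norm (b + w) ≤ Zsqrtd.norm (a + w)}).Finite :=
    W.finite_toSet.biUnion (fun w _ => finite_shift w _)
  refine ((hrec a haA Q hQpos).sdiff hfin2).mono ?_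
  rintro b ⟨⟨hbA, hbQ⟩, hb⟩
  refine ⟨hbA, fun z hz hirr => ?_⟩
  have hwW : z - b ∈ W := by
    rw [hW, Set.Finite.mem_toFinset]
    exact hz
  have hdvd : a + (z - b) ∣ z := by
    have h1 : a + (z - b) ∣ ((Zsqrtd.norm (a + (z - b)) : ℤ) : GaussianInt) := by
      rw [Zsqrtd.norm_eq_mul_conj]
      exact dvd_mul_right _ _
    have h2 : ((Zsqrtd.norm (a + (z - b)) : ℤ) : GaussianInt) ∣ (Q : GaussianInt) := by
      have h3 : (Zsqrtd.norm (a + (z - b))) ∣ (Q : ℤ) := by
        have h4 : (Zsqrtd.norm (a + (z - b))).natAbs ∣ Q := Finset.dvd_prod_of_mem _ hwW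
        exact Int.natAbs_dvd.1 (Int.natCast_dvd_natCast.2 h4)
      have h5 := (Int.castRingHom GaussianInt).map_dvd h3
      simpa using h5
    have h6 : a + (z - b) ∣ b - a := (h1.trans h2).trans hbQ
    have h7 : (a + (z - b)) + (b - a) = z := by ring
    have h8 : a + (z - b) ∣ (a + (z - b)) + (b - a) := dvd_add (dvd_refl _) h6
    rw [h7] at h8
    exact h8
  have hnu : ¬ IsUnit (a + (z - b)) := by
    intro hu
    have h1 := (Zsqrtd.norm_eq_one_iff' (by norm_num) _).2 hu
    have h2 := ha1 _ hwW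
    omega
  obtain ⟨c, hc⟩ := hdvd
  have hcu : IsUnit c := (hirr.isUnit_or_isUnit hc).resolve_left hnu
  apply hb
  refine Set.mem_iUnion₂.2 ⟨z - b, hwW, ?_⟩
  have h8 : b + (z - b) = z := by ring
  simp only [Set.mem_ofPred_eq]
  rw [h8]
  nth_rw 1 [hc]
  have h9 : Zsqrtd.norm c = 1 := (Zsqrtd.norm_eq_one_iff' (by norm_num) _).2 hcu
  rw [Zsqrtd.norm_mul, h9, mul_one]

end Vale.Agent.P015
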