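import Vale.Agent.P015.Path

/-!
P015: no infinite walk through Gaussian primes stays near a straight line (any real slope).
-/

namespace Vale.Agent.P015

open Filter Topology

lemma disc_at (K : ℤ) (a : GaussianInt)
    (ha : ∀ w : GaussianInt, Zsqrtd.norm w ≤ K → 1 < Zsqrtd.norm (a + w)) :
    ∃ Q : ℕ, 0 < Q ∧ {b : GaussianInt | (Q : GaussianInt) ∣ b - a ∧
      ∃ z : GaussianInt, Zsqrtd.norm (z - b) ≤ K ∧ Irreducible z}.Finite := by
  classical
  set W : Finset GaussianInt := (finite_norm_le K).toFinset with hW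
  have hWm : ∀ w, w ∈ W ↔ Zsqrtd.norm w ≤ K := by
    intro w
    rw [hW, Set.Finite.mem_toFinset]
    rfl
  set Q : ℕ := ∏ w ∈ W, (Zsqrtd.norm (a + w)).natAbs with hQ
  have hQpos : 0 < Q := Finset.prod_pos (fun w hw => by
    have := ha w ((hWm w).1 hw)
    omega)
  refine ⟨Q, hQpos, ?_⟩
  have hfin2 : (⋃ w ∈ W, {b : GaussianInt | Zsqrtd.norm (b + w) ≤ Zsqrtd.norm (a + w)}).Finite :=
    W.finite_toSet.biUnion (fun w _ => finite_shift w _)
  refine hfin2.subset ?_
  rintro b ⟨hbQ, z, hz, hirr⟩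
  have hwW : z - b ∈ W := (hWm _).2 hz
  have hdvd : a + (z - b) ∣ z := by
    have h1 : a + (z - b) ∣ ((Zsqrtd.norm (a + (z - b)) : ℤ) : GaussianInt) := by
      rw [Zsqrtd.norm_eq_mul_conj]
      exact dvd_mul_right _ _
    have h2 : ((Zsqrtd.norm (a + (z - b)) : ℤ) : GaussianInt) ∣ (Q : GaussianInt) := by
      have h3 : (Zsqrtd.norm (a + (z - b))) ∣ (Q : ℤ) := by
        have h4 : (Zsqrtd.norm (a + (z - b))).natAbs ∣ Q := Finset.dvd_prod_of_mem _ hwW
        exact Int.natAbs_dvd.1 (Int.natCast_dvd_natCast.2 h4)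
      have h5 := (Int.castRingHom GaussianInt).map_dvd h3
      simpa using h5
    have h6 : a + (z - b) ∣ b - a := (h1.trans h2).trans hbQ
    have h7 : (a + (z - b)) + (b - a) = z := by ring
    have h8 : a + (z - b) ∣ (a + (z - b)) + (b - a) := dvd_add (dvd_refl _) h6
    rw [h7] at h8
    exact h8
  have hnu : ¬ IsUnit (a + (z - b)) := by
    intro hu
    have h1 := (Zsqrtd.norm_eq_one_iff' (by norm_num) _).2 hu
    have h2 := ha _ hz
    omega
  obtain ⟨c, hc⟩ := hdvd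
  have hcu : IsUnit c := (hirr.isUnit_or_isUnit hc).resolve_left hnu
  refine Set.mem_iUnion₂.2 ⟨z - b, hwW, ?_⟩
  have h8 : b + (z - b) = z := by ring
  simp only [Set.mem_ofPred_eq]
  rw [h8]
  nth_rw 1 [hc]
  have h9 : Zsqrtd.norm c = 1 := (Zsqrtd.norm_eq_one_iff' (by norm_num) _).2 hcu
  rw [Zsqrtd.norm_mul, h9, mul_one]

lemma dirichlet (v : ℂ) (Q : ℕ) (hQ : 0 < Q) (N0 : ℕ) :
    ∃ k : ℕ, N0 ≤ k ∧ ∃ l : GaussianInt, ‖(k : ℂ) * v - (Q : ℂ) * GaussianInt.toComplex l‖ ≤ 1 := by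
  have hQr : (0 : ℝ) < Q := by exact_mod_cast hQ
  set x : ℝ := v.re / Q with hx
  set y : ℝ := v.im / Q with hy
  set u : ℕ → ℝ × ℝ := fun k => (Int.fract ((k : ℝ) * x), Int.fract ((k : ℝ) * y)) with hu
  have hmem : ∀ k, u k ∈ Set.Icc (0 : ℝ × ℝ) (1, 1) := by
    intro k
    refine ⟨⟨Int.fract_nonneg _, Int.fract_nonneg _⟩, ⟨(Int.fract_lt_one _).le, (Int.fract_lt_one _).le⟩⟩
  obtain ⟨a, -, φ, hφ, hlim⟩ := (isCompact_Icc (a := (0 : ℝ × ℝ)) (b := (1, 1))).tendsto_subseq hmem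
  have hε : (0 : ℝ) < 1 / (4 * Q) := by positivity
  obtain ⟨M, hM⟩ := Metric.tendsto_atTop.1 hlim _ hε
  obtain ⟨m, hm1, hm2⟩ := ((hφ.tendsto_atTop.eventually_ge_atTop (φ M + N0)).and
    (eventually_ge_atTop M)).exists
  set i := φ M with hi
  set j := φ m with hj
  have hij : i ≤ j := by omega
  refine ⟨j - i, by omega, ⟨⌊(j : ℝ) * x⌋ - ⌊(i : ℝ) * x⌋, ⌊(j : ℝ) * y⌋ - ⌊(i : ℝ) * y⌋⟩, ?_⟩
  have hd : dist (u j) (u i) < 1 / (2 * Q) := by
    have h1 := hM m hm2
    have h2 := hM M le_rfl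
    have h3 := dist_triangle_right (u j) (u i) a
    have h4 : (1 : ℝ) / (2 * Q) = 1 / (4 * Q) + 1 / (4 * Q) := by
      field_simp
      norm_num
    rw [h4]
    exact lt_of_le_of_lt h3 (add_lt_add h1 h2)
  rw [Prod.dist_eq, max_lt_iff] at hd
  obtain ⟨hd1, hd2⟩ := hd
  rw [Real.dist_eq] at hd1 hd2
  have e1 : (((j - i : ℕ) : ℂ) * v - (Q : ℂ) * GaussianInt.toComplex
      ⟨⌊(j : ℝ) * x⌋ - ⌊(i : ℝ) * x⌋, ⌊(j : ℝ) * y⌋ - ⌊(i : ℝ) * y⌋⟩).re =
      Q * ((u j).1 - (u i).1) := by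
    have f1 : (u j).1 = (j : ℝ) * x - (⌊(j : ℝ) * x⌋ : ℝ) := rfl
    have f2 : (u i).1 = (i : ℝ) * x - (⌊(i : ℝ) * x⌋ : ℝ) := rfl
    have f3 : v.re = Q * x := by rw [hx]; field_simp
    rw [Nat.cast_sub hij, f1, f2, Complex.sub_re, Complex.mul_re, Complex.mul_re,
      GaussianInt.re_toComplex, Complex.sub_re, Complex.sub_im, Complex.natCast_re,
      Complex.natCast_re, Complex.natCast_im, Complex.natCast_im, Complex.natCast_re,
      Complex.natCast_im, f3]
    push_cast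
    ring
  have e2 : (((j - i : ℕ) : ℂ) * v - (Q : ℂ) * GaussianInt.toComplex
      ⟨⌊(j : ℝ) * x⌋ - ⌊(i : ℝ) * x⌋, ⌊(j : ℝ) * y⌋ - ⌊(i : ℝ) * y⌋⟩).im =
      Q * ((u j).2 - (u i).2) := by
    have f1 : (u j).2 = (j : ℝ) * y - (⌊(j : ℝ) * y⌋ : ℝ) := rfl
    have f2 : (u i).2 = (i : ℝ) * y - (⌊(i : ℝ) * y⌋ : ℝ) := rfl
    have f3 : v.im = Q * y := by rw [hy]; field_simp
    rw [Nat.cast_sub hij, f1, f2, Complex.sub_im, Complex.mul_im, Complex.mul_im,
      GaussianInt.im_toComplex, Complex.sub_re, Complex.sub_im, Complex.natCast_re,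
      Complex.natCast_re, Complex.natCast_im, Complex.natCast_im, Complex.natCast_re,
      Complex.natCast_im, f3]
    push_cast
    ring
  refine (Complex.norm_le_abs_re_add_abs_im _).trans ?_
  rw [e1, e2, abs_mul, abs_mul, abs_of_pos hQr]
  have h5 : (Q : ℝ) * |(u j).1 - (u i).1| ≤ Q * (1 / (2 * Q)) :=
    mul_le_mul_of_nonneg_left hd1.le hQr.le
  have h6 : (Q : ℝ) * |(u j).2 - (u i).2| ≤ Q * (1 / (2 * Q)) :=
    mul_le_mul_of_nonneg_left hd2.le hQr.le
  have h7 : (Q : ℝ) * (1 / (2 * Q)) = 1 / 2 := by field_simp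
  rw [h7] at h5 h6
  linarith

/-- The nearest Gaussian integer. -/
noncomputable def near (x : ℂ) : GaussianInt := ⟨round x.re, round x.im⟩

lemma near_le (x : ℂ) : ‖GaussianInt.toComplex (near x) - x‖ ≤ 1 := by
  refine (Complex.norm_le_abs_re_add_abs_im _).trans ?_
  have h1 := abs_sub_round x.re
  have h2 := abs_sub_round x.im
  rw [abs_sub_comm] at h1 h2
  rw [Complex.sub_re, Complex.sub_im, near, GaussianInt.re_toComplex, GaussianInt.im_toComplex]
  linarith

lemma bdd_of_finite (S : Set GaussianInt) (hS : S.Finite) :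
    ∃ L : ℝ, ∀ b ∈ S, ‖GaussianInt.toComplex b‖ ≤ L := by
  obtain ⟨L, hL⟩ := (hS.image (fun b => ‖GaussianInt.toComplex b‖)).bddAbove
  exact ⟨L, fun b hb => hL ⟨b, hb, rfl⟩⟩

/-- On every real line there are points arbitrarily far away which are centres of prime-free disks
of any given radius. -/
theorem line_disc (p v : ℂ) (hv : v ≠ 0) (ρ T : ℝ) :
    ∃ s : ℝ, T < s ∧ ∀ z : GaussianInt,
      ‖GaussianInt.toComplex z - (p + (s : ℂ) * v)‖ ≤ ρ → ¬ Irreducible z := by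
  have hvn : 0 < ‖v‖ := norm_pos_iff.2 hv
  set R : ℝ := ρ + 2 with hR
  set K : ℤ := ⌈R ^ 2⌉ with hK
  have hbad : {c : GaussianInt | ∃ w : GaussianInt, Zsqrtd.norm w ≤ K ∧
      Zsqrtd.norm (c + w) ≤ 1}.Finite := by
    have h1 : (⋃ w ∈ {w : GaussianInt | Zsqrtd.norm w ≤ K},
        {b : GaussianInt | Zsqrtd.norm (b + w) ≤ 1}).Finite :=
      (finite_norm_le K).biUnion (fun w _ => finite_shift w 1)
    refine h1.subset ?_
    rintro c ⟨w, hw, hcw⟩
    exact Set.mem_iUnion₂.2 ⟨w, hw, hcw⟩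
  obtain ⟨L, hL⟩ := bdd_of_finite _ hbad
  obtain ⟨s0, hs0⟩ := exists_nat_gt ((L + ‖p‖ + 1) / ‖v‖)
  have hs0' : L + ‖p‖ + 1 < s0 * ‖v‖ := (div_lt_iff₀ hvn).1 hs0
  set c : GaussianInt := near (p + (s0 : ℂ) * v) with hc
  have hcn : ‖GaussianInt.toComplex c - (p + (s0 : ℂ) * v)‖ ≤ 1 := near_le _
  have hcL : L < ‖GaussianInt.toComplex c‖ := by
    have h1 : (s0 : ℂ) * v = -(GaussianInt.toComplex c - (p + (s0 : ℂ) * v)) +
        GaussianInt.toComplex c + (-p) := by ring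
    have h2 : ‖(s0 : ℂ) * v‖ = s0 * ‖v‖ := by rw [norm_mul, Complex.norm_natCast]
    have h3 : ‖(s0 : ℂ) * v‖ ≤ 1 + ‖GaussianInt.toComplex c‖ + ‖p‖ := by
      rw [h1]
      refine (norm_add₃_le).trans ?_
      rw [norm_neg, norm_neg]
      linarith
    rw [h2] at h3
    linarith
  have hcgood : ∀ w : GaussianInt, Zsqrtd.norm w ≤ K → 1 < Zsqrtd.norm (c + w) := by
    intro w hw
    by_contra h
    push Not at h
    exact absurd (hL c ⟨w, hw, h⟩) (not_le.2 hcL)
  obtain ⟨Q, hQ, hfin⟩ := disc_at K c hcgood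
  obtain ⟨L2, hL2⟩ := bdd_of_finite _ hfin
  obtain ⟨N0, hN0⟩ := exists_nat_gt (max ((L2 + ‖p‖ + 2) / ‖v‖) T)
  obtain ⟨k, hk, l, hl⟩ := dirichlet v Q hQ N0
  set b : GaussianInt := c + (Q : GaussianInt) * l with hb
  set s : ℝ := (s0 : ℝ) + k with hs
  have hkN : (N0 : ℝ) ≤ k := by exact_mod_cast hk
  have hs0n : (0 : ℝ) ≤ s0 := Nat.cast_nonneg _
  have hst0 : T < s := by
    have := le_max_right ((L2 + ‖p‖ + 2) / ‖v‖) T
    linarith
  have hsL : L2 + ‖p‖ + 2 < s * ‖v‖ := by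
    refine (div_lt_iff₀ hvn).1 ?_
    have := le_max_left ((L2 + ‖p‖ + 2) / ‖v‖) T
    linarith
  have hbC : GaussianInt.toComplex b = GaussianInt.toComplex c +
      (Q : ℂ) * GaussianInt.toComplex l := by
    rw [hb, map_add, map_mul, map_natCast]
  have hbn : ‖GaussianInt.toComplex b - (p + (s : ℂ) * v)‖ ≤ 2 := by
    have h1 : GaussianInt.toComplex b - (p + (s : ℂ) * v) =
        (GaussianInt.toComplex c - (p + (s0 : ℂ) * v)) -
        ((k : ℂ) * v - (Q : ℂ) * GaussianInt.toComplex l) := by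
      rw [hbC, hs]
      push_cast
      ring
    rw [h1]
    refine (norm_sub_le _ _).trans ?_
    linarith
  have hbL : L2 < ‖GaussianInt.toComplex b‖ := by
    have h1 : (s : ℂ) * v = -(GaussianInt.toComplex b - (p + (s : ℂ) * v)) +
        GaussianInt.toComplex b + (-p) := by ring
    have h2 : s * ‖v‖ ≤ ‖(s : ℂ) * v‖ := by
      rw [norm_mul, Complex.norm_real]
      exact mul_le_mul_of_nonneg_right (Real.le_norm_self _) hvn.le
    have h3 : ‖(s : ℂ) * v‖ ≤ 2 + ‖GaussianInt.toComplex b‖ + ‖p‖ := by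
      rw [h1]
      refine (norm_add₃_le).trans ?_
      rw [norm_neg, norm_neg]
      linarith
    linarith
  refine ⟨s, hst0, fun w hw hwirr => ?_⟩
  have h6 : ‖GaussianInt.toComplex (w - b)‖ ≤ R := by
    have h7 : GaussianInt.toComplex (w - b) =
        (GaussianInt.toComplex w - (p + (s : ℂ) * v)) +
        (-(GaussianInt.toComplex b - (p + (s : ℂ) * v))) := by
      rw [map_sub]
      ring
    rw [h7]
    refine (norm_add_le _ _).trans ?_
    rw [norm_neg, hR]
    linarith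
  have h7 : ((Zsqrtd.norm (w - b) : ℤ) : ℝ) = ‖GaussianInt.toComplex (w - b)‖ ^ 2 := by
    rw [GaussianInt.intCast_real_norm, Complex.normSq_eq_norm_sq]
  have h8 : ‖GaussianInt.toComplex (w - b)‖ ^ 2 ≤ R ^ 2 :=
    pow_le_pow_left₀ (norm_nonneg _) h6 2
  have h9 : ((Zsqrtd.norm (w - b) : ℤ) : ℝ) ≤ ((⌈R ^ 2⌉ : ℤ) : ℝ) := by
    rw [h7]
    exact h8.trans (Int.le_ceil _)
  have h10 : Zsqrtd.norm (w - b) ≤ K := by exact_mod_cast h9
  refine absurd (hL2 b ⟨⟨l, ?_⟩, w, h10, hwirr⟩) (not_le.2 hbL)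
  rw [hb]
  ring

theorem line_top (p v : ℂ) (hv : v ≠ 0) (D W : ℝ)
    (z : ℕ → GaussianInt) (hirr : ∀ n, Irreducible (z n))
    (hstep : ∀ n, ‖GaussianInt.toComplex (z (n + 1)) - GaussianInt.toComplex (z n)‖ ≤ D)
    (t : ℕ → ℝ) (htW : ∀ n, ‖GaussianInt.toComplex (z n) - (p + (t n : ℂ) * v)‖ ≤ W)
    (htop : ∀ B : ℝ, ∀ᶠ n in atTop, B < t n) : False := by
  have hvn : 0 < ‖v‖ := norm_pos_iff.2 hv
  obtain ⟨s, hst0, hfree⟩ := line_disc p v hv (W + (D + 2 * W)) (t 0)
  obtain ⟨m0, hm0⟩ := eventually_atTop.1 (htop s)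
  have hex : ∃ k : ℕ, s < t k := ⟨m0, hm0 _ le_rfl⟩
  classical
  set k' := Nat.find hex with hk'
  have hk1 : s < t k' := Nat.find_spec hex
  have hkpos : k' ≠ 0 := by
    intro h
    rw [h] at hk1
    exact absurd hst0 (not_lt.2 hk1.le)
  obtain ⟨n, hj⟩ := Nat.exists_eq_succ_of_ne_zero hkpos
  have hjn : ¬ s < t n := Nat.find_min hex (by omega)
  push Not at hjn
  have hk2 : s < t (n + 1) := by
    have : k' = n + 1 := by omega
    rw [← this]
    exact hk1
  have h2 : ‖((t (n + 1) : ℂ) - (t n : ℂ)) * v‖ ≤ D + 2 * W := by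
    have h3 : ((t (n + 1) : ℂ) - (t n : ℂ)) * v =
        (-(GaussianInt.toComplex (z (n + 1)) - (p + (t (n + 1) : ℂ) * v))) +
        (GaussianInt.toComplex (z (n + 1)) - GaussianInt.toComplex (z n)) +
        (GaussianInt.toComplex (z n) - (p + (t n : ℂ) * v)) := by ring
    rw [h3]
    refine (norm_add₃_le).trans ?_
    rw [norm_neg]
    have := htW (n + 1)
    have := htW n
    have := hstep n
    linarith
  have h5 : ‖((s : ℂ) - (t n : ℂ)) * v‖ ≤ D + 2 * W := by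
    refine le_trans ?_ h2
    rw [norm_mul, norm_mul, ← Complex.ofReal_sub, ← Complex.ofReal_sub, Complex.norm_real,
      Complex.norm_real, Real.norm_eq_abs, Real.norm_eq_abs, abs_of_nonneg (by linarith),
      abs_of_nonneg (by linarith)]
    exact mul_le_mul_of_nonneg_right (by linarith) hvn.le
  refine hfree (z n) ?_ (hirr n)
  have h7 : GaussianInt.toComplex (z n) - (p + (s : ℂ) * v) =
      (GaussianInt.toComplex (z n) - (p + (t n : ℂ) * v)) +
      (-(((s : ℂ) - (t n : ℂ)) * v)) := by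
    ring
  rw [h7]
  refine (norm_add_le _ _).trans ?_
  rw [norm_neg]
  have := htW n
  linarith

/-- No infinite walk of bounded steps through Gaussian primes stays near a straight line. -/
theorem no_path_line (p v : ℂ) (hv : v ≠ 0) (D W : ℝ)
    (z : ℕ → GaussianInt) (hinj : Function.Injective z) (hirr : ∀ n, Irreducible (z n))
    (hstep : ∀ n, ‖GaussianInt.toComplex (z (n + 1)) - GaussianInt.toComplex (z n)‖ ≤ D)
    (hnear : ∀ n, ∃ t : ℝ, ‖GaussianInt.toComplex (z n) - (p + (t : ℂ) * v)‖ ≤ W) : False := by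
  choose t htW using hnear
  have hvn : 0 < ‖v‖ := norm_pos_iff.2 hv
  have habs : ∀ B : ℝ, ∀ᶠ n in atTop, B < |t n| := by
    intro B
    have hfin := finite_ball z hinj (W + (‖p‖ + B * ‖v‖))
    have hcof : ∀ᶠ n in cofinite, n ∉ {n : ℕ | ‖(GaussianInt.toComplex (z n))‖ ≤
        W + (‖p‖ + B * ‖v‖)} := hfin.eventually_cofinite_notMem
    rw [Nat.cofinite_eq_atTop] at hcof
    filter_upwards [hcof] with n hn
    by_contra h
    push Not at h
    apply hn
    show ‖(GaussianInt.toComplex (z n))‖ ≤ W + (‖p‖ + B * ‖v‖)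
    have h2 : GaussianInt.toComplex (z n) =
        (GaussianInt.toComplex (z n) - (p + (t n : ℂ) * v)) + (p + (t n : ℂ) * v) := by ring
    rw [h2]
    refine (norm_add_le _ _).trans (add_le_add (htW n) ((norm_add_le _ _).trans ?_))
    rw [norm_mul, Complex.norm_real, Real.norm_eq_abs]
    have := mul_le_mul_of_nonneg_right h hvn.le
    linarith
  have hjump : ∀ n, |t (n + 1) - t n| ≤ (D + 2 * W) / ‖v‖ := by
    intro n
    rw [le_div_iff₀ hvn]
    have h2 : ‖((t (n + 1) : ℂ) - (t n : ℂ)) * v‖ ≤ D + 2 * W := by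
      have h3 : ((t (n + 1) : ℂ) - (t n : ℂ)) * v =
          (-(GaussianInt.toComplex (z (n + 1)) - (p + (t (n + 1) : ℂ) * v))) +
          (GaussianInt.toComplex (z (n + 1)) - GaussianInt.toComplex (z n)) +
          (GaussianInt.toComplex (z n) - (p + (t n : ℂ) * v)) := by ring
      rw [h3]
      refine (norm_add₃_le).trans ?_
      rw [norm_neg]
      have := htW (n + 1)
      have := htW n
      have := hstep n
      linarith
    rwa [norm_mul, ← Complex.ofReal_sub, Complex.norm_real, Real.norm_eq_abs] at h2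
  set δ : ℝ := (D + 2 * W) / ‖v‖ with hδ
  have hδ0 : 0 ≤ δ := le_trans (abs_nonneg _) (hjump 0)
  obtain ⟨n1, hn1⟩ := eventually_atTop.1 (habs δ)
  rcases le_or_gt 0 (t n1) with h0 | h0
  · have hpos : ∀ n, n1 ≤ n → 0 ≤ t n := by
      intro n hn
      induction n, hn using Nat.le_induction with
      | base => exact h0
      | succ n hn ih =>
        by_contra h
        push Not at h
        have h1 := hn1 n hn
        rw [abs_of_nonneg ih] at h1
        have h2 := (abs_le.1 (hjump n)).1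
        linarith
    refine line_top p v hv D W z hirr hstep t htW (fun B => ?_)
    filter_upwards [habs B, eventually_ge_atTop n1] with n h1 h2
    rwa [abs_of_nonneg (hpos n h2)] at h1
  · have hneg : ∀ n, n1 ≤ n → t n < 0 := by
      intro n hn
      induction n, hn using Nat.le_induction with
      | base => exact h0
      | succ n hn ih =>
        by_contra h
        push Not at h
        have h1 := hn1 n hn
        rw [abs_of_neg ih] at h1
        have h2 := (abs_le.1 (hjump n)).2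
        linarith
    refine line_top p (-v) (neg_ne_zero.2 hv) D W z hirr hstep (fun n => - t n) (fun n => ?_)
      (fun B => ?_)
    · have h1 : (p + ((-t n : ℝ) : ℂ) * (-v)) = p + (t n : ℂ) * v := by
        push_cast
        ring
      rw [h1]
      exact htW n
    · filter_upwards [habs B, eventually_ge_atTop n1] with n h1 h2
      rwa [abs_of_neg (hneg n h2)] at h1

end Vale.Agent.P015
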