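import Vale.Agent.P015.Disc

/-!
P015: polynomial curves.
-/

namespace Vale.Agent.P015

open Polynomial Filter

/-- Prime-free disks of every radius centred at `F(N)` for infinitely many natural numbers `N`. -/
theorem disc_poly (F : Polynomial GaussianInt) (hF : 0 < F.natDegree) (K : ℤ) :
    {N : ℕ | ∀ z : GaussianInt, Zsqrtd.norm (z - F.eval (N : GaussianInt)) ≤ K →
      ¬ Irreducible z}.Infinite := by
  classical
  set f : ℕ → GaussianInt := fun N => F.eval (N : GaussianInt) with hf
  have hfib : ∀ v : GaussianInt, (f ⁻¹' {v}).Finite := by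
    intro v
    have hne : F - C v ≠ 0 := by
      intro h
      have h1 : F = C v := sub_eq_zero.1 h
      rw [h1, natDegree_C] at hF
      exact lt_irrefl _ hF
    have h2 : ((F - C v).roots.toFinset : Set GaussianInt).Finite := Finset.finite_toSet _
    refine (h2.preimage (f := fun N : ℕ => (N : GaussianInt)) ?_).subset ?_
    · intro x _ y _ hxy
      exact Nat.cast_injective hxy
    · intro N hN
      simp only [Set.mem_preimage, Set.mem_singleton_iff] at hN
      simp only [Set.mem_preimage, Finset.mem_coe, Multiset.mem_toFinset]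
      rw [mem_roots hne, IsRoot.def, eval_sub, eval_C, sub_eq_zero]
      exact hN
  have himg : ∀ T : Set ℕ, T.Infinite → (f '' T).Infinite := by
    intro T hT h
    apply hT
    refine (h.preimage' (fun b _ => hfib b)).subset ?_
    exact Set.subset_preimage_image f T
  have hA : (Set.range f).Infinite := by
    rw [← Set.image_univ]
    exact himg _ Set.infinite_univ
  have hrec : ∀ a ∈ Set.range f, ∀ Q : ℕ, 0 < Q →
      {b | b ∈ Set.range f ∧ (Q : GaussianInt) ∣ b - a}.Infinite := by
    rintro _ ⟨N, rfl⟩ Q hQ
    have h1 : (Set.range (fun k : ℕ => N + k * Q)).Infinite := by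
      refine Set.infinite_range_of_injective ?_
      intro x y hxy
      have h2 : x * Q = y * Q := by
        have : N + x * Q = N + y * Q := hxy
        omega
      exact Nat.eq_of_mul_eq_mul_right hQ h2
    refine (himg _ h1).mono ?_
    rintro _ ⟨_, ⟨k, rfl⟩, rfl⟩
    refine ⟨⟨_, rfl⟩, ?_⟩
    have h3 := Polynomial.sub_dvd_eval_sub ((N + k * Q : ℕ) : GaussianInt) (N : GaussianInt) F
    refine dvd_trans ?_ h3
    refine ⟨(k : GaussianInt), ?_⟩
    push_cast
    ring
  have hmain := disc (Set.range f) hA hrec K
  intro hfin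
  apply hmain
  refine (hfin.image f).subset ?_
  rintro b ⟨⟨N, rfl⟩, hb⟩
  exact ⟨N, hb, rfl⟩

/-- The real part of `c * P(x)` is eventually monotone. -/
lemma mono (P : Polynomial ℂ) (hP : 0 < P.natDegree) (c : ℂ) (hc : 0 < (c * P.leadingCoeff).re) :
    ∃ T : ℝ, ∀ x y : ℝ, T ≤ x → x ≤ y →
      (c * P.eval (x : ℂ)).re ≤ (c * P.eval (y : ℂ)).re := by
  set n := P.natDegree with hn
  set q : Polynomial ℝ := ∑ i ∈ Finset.range (n + 1), monomial i ((c * P.coeff i).re) with hq
  have hqe : ∀ x : ℝ, q.eval x = (c * P.eval (x : ℂ)).re := by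
    intro x
    rw [hq, eval_finset_sum, eval_eq_sum_range, Finset.mul_sum, Complex.re_sum]
    refine Finset.sum_congr rfl fun i _ => ?_
    rw [eval_monomial, ← mul_assoc, ← Complex.ofReal_pow, Complex.re_mul_ofReal]
  have hcoef : ∀ j, q.coeff j = if j ∈ Finset.range (n + 1) then (c * P.coeff j).re else 0 := by
    intro j
    rw [hq, finset_sum_coeff]
    simp only [coeff_monomial]
    rw [Finset.sum_ite_eq']
  have hqn : 0 < q.coeff n := by
    rw [hcoef, if_pos (Finset.self_mem_range_succ n)]
    exact hc
  have hdc : 0 < q.derivative.coeff (n - 1) := by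
    rw [coeff_derivative]
    have h1 : n - 1 + 1 = n := by omega
    rw [h1]
    positivity
  have hdd : q.derivative.natDegree ≤ n - 1 := by
    rw [natDegree_le_iff_coeff_eq_zero]
    intro N hN
    rw [coeff_derivative, hcoef, if_neg (by rw [Finset.mem_range]; omega), zero_mul]
  have hdn : q.derivative.natDegree = n - 1 :=
    le_antisymm hdd (le_natDegree_of_ne_zero hdc.ne')
  have hlc : 0 < q.derivative.leadingCoeff := by
    rw [leadingCoeff, hdn]
    exact hdc
  have hev : ∀ᶠ x : ℝ in atTop, 0 ≤ q.derivative.eval x := by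
    rcases Nat.eq_zero_or_pos (n - 1) with h0 | h0
    · have h1 : q.derivative.natDegree = 0 := by rw [hdn, h0]
      have h2 := eq_C_of_natDegree_eq_zero h1
      rw [h2]
      refine Eventually.of_forall fun x => ?_
      rw [eval_C]
      rw [h0] at hdc
      exact hdc.le
    · have h1 : 0 < q.derivative.degree := by
        rw [← natDegree_pos_iff_degree_pos, hdn]
        exact h0
      exact (q.derivative.tendsto_atTop_of_leadingCoeff_nonneg h1 hlc.le).eventually_ge_atTop 0
  obtain ⟨T, hT⟩ := eventually_atTop.1 hev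
  refine ⟨T, fun x y hx hxy => ?_⟩
  have hm : MonotoneOn (fun x => q.eval x) (Set.Ici T) := by
    refine monotoneOn_of_deriv_nonneg (convex_Ici T) q.continuous.continuousOn
      q.differentiable.differentiableOn ?_
    intro u hu
    rw [Polynomial.deriv]
    apply hT
    rw [interior_Ici] at hu
    exact le_of_lt hu
  rw [← hqe, ← hqe]
  exact hm hx (le_trans hx hxy) hxy

end Vale.Agent.P015
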