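import Vale.Agent.P015.Mono

/-!
P015: no infinite walk through Gaussian primes stays near a polynomial curve.
-/

namespace Vale.Agent.P015

open Polynomial Filter

lemma finite_ball (z : ℕ → GaussianInt) (hinj : Function.Injective z) (L : ℝ) :
    {n : ℕ | ‖(GaussianInt.toComplex (z n))‖ ≤ L}.Finite := by
  refine ((finite_norm_le ⌈L ^ 2⌉).preimage (f := z) (fun x _ y _ h => hinj h)).subset ?_
  intro n hn
  simp only [Set.mem_ofPred_eq] at hn
  show Zsqrtd.norm (z n) ≤ ⌈L ^ 2⌉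
  have h1 : ((Zsqrtd.norm (z n) : ℤ) : ℝ) = ‖GaussianInt.toComplex (z n)‖ ^ 2 := by
    rw [GaussianInt.intCast_real_norm, Complex.normSq_eq_norm_sq]
  have h2 : ‖GaussianInt.toComplex (z n)‖ ^ 2 ≤ L ^ 2 :=
    pow_le_pow_left₀ (norm_nonneg _) hn 2
  have h3 : ((Zsqrtd.norm (z n) : ℤ) : ℝ) ≤ ((⌈L ^ 2⌉ : ℤ) : ℝ) := by
    rw [h1]
    exact h2.trans (Int.le_ceil _)
  exact_mod_cast h3

lemma cone (P : Polynomial ℂ) (hP : 0 < P.natDegree) :
    ∃ T : ℝ, ∀ x s y : ℝ, T ≤ x → x ≤ s → s ≤ y →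
      ‖P.eval (s : ℂ) - P.eval (x : ℂ)‖ ≤ 2 * ‖P.eval (y : ℂ) - P.eval (x : ℂ)‖ := by
  set a := P.leadingCoeff with ha
  have ha0 : a ≠ 0 := by
    rw [ha, Ne, leadingCoeff_eq_zero]
    intro h
    rw [h, natDegree_zero] at hP
    exact lt_irrefl _ hP
  have hns : 0 < Complex.normSq a := Complex.normSq_pos.2 ha0
  have hc1 : 0 < ((starRingEnd ℂ) a * (1 - Complex.I) * P.leadingCoeff).re := by
    have h1 : (starRingEnd ℂ) a * (1 - Complex.I) * P.leadingCoeff =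
        (Complex.normSq a : ℂ) * (1 - Complex.I) := by
      rw [← ha, Complex.normSq_eq_conj_mul_self]; ring
    rw [h1, Complex.re_ofReal_mul]
    simpa using hns
  have hc2 : 0 < ((starRingEnd ℂ) a * (1 + Complex.I) * P.leadingCoeff).re := by
    have h1 : (starRingEnd ℂ) a * (1 + Complex.I) * P.leadingCoeff =
        (Complex.normSq a : ℂ) * (1 + Complex.I) := by
      rw [← ha, Complex.normSq_eq_conj_mul_self]; ring
    rw [h1, Complex.re_ofReal_mul]
    simpa using hns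
  obtain ⟨T1, hT1⟩ := mono P hP _ hc1
  obtain ⟨T2, hT2⟩ := mono P hP _ hc2
  refine ⟨max T1 T2, ?_⟩
  have key : ∀ x y : ℝ, max T1 T2 ≤ x → x ≤ y →
      |((starRingEnd ℂ) a * (P.eval (y : ℂ) - P.eval (x : ℂ))).im| ≤
        ((starRingEnd ℂ) a * (P.eval (y : ℂ) - P.eval (x : ℂ))).re := by
    intro x y hx hxy
    have h1 := hT1 x y (le_trans (le_max_left _ _) hx) hxy
    have h2 := hT2 x y (le_trans (le_max_right _ _) hx) hxy
    rw [abs_le]
    simp only [Complex.mul_re, Complex.mul_im, Complex.sub_re, Complex.sub_im, Complex.add_re,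
      Complex.add_im, Complex.one_re, Complex.one_im, Complex.I_re, Complex.I_im] at h1 h2 ⊢
    constructor <;> nlinarith
  intro x s y hx hxs hsy
  have k1 := key x s hx hxs
  have k2 := key s y (hx.trans hxs) hsy
  set u := (starRingEnd ℂ) a * (P.eval (s : ℂ) - P.eval (x : ℂ)) with hu
  set v := (starRingEnd ℂ) a * (P.eval (y : ℂ) - P.eval (s : ℂ)) with hv
  have huv : (starRingEnd ℂ) a * (P.eval (y : ℂ) - P.eval (x : ℂ)) = u + v := by
    rw [hu, hv]; ring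
  have h1 : ‖u‖ ≤ 2 * u.re := by
    have h2 := Complex.norm_le_abs_re_add_abs_im u
    have h3 : 0 ≤ u.re := le_trans (abs_nonneg _) k1
    rw [abs_of_nonneg h3] at h2
    linarith
  have h2 : u.re ≤ ‖u + v‖ := by
    have h3 : 0 ≤ v.re := le_trans (abs_nonneg _) k2
    have h4 := Complex.re_le_norm (u + v)
    rw [Complex.add_re] at h4
    linarith
  have h3 : ‖u‖ = ‖a‖ * ‖P.eval (s : ℂ) - P.eval (x : ℂ)‖ := by
    rw [hu, norm_mul, RCLike.norm_conj]
  have h4 : ‖u + v‖ = ‖a‖ * ‖P.eval (y : ℂ) - P.eval (x : ℂ)‖ := by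
    rw [← huv, norm_mul, RCLike.norm_conj]
  have h5 : ‖a‖ * ‖P.eval (s : ℂ) - P.eval (x : ℂ)‖ ≤
      ‖a‖ * (2 * ‖P.eval (y : ℂ) - P.eval (x : ℂ)‖) := by
    rw [← h3]
    have : ‖a‖ * (2 * ‖P.eval (y : ℂ) - P.eval (x : ℂ)‖) = 2 * ‖u + v‖ := by rw [h4]; ring
    rw [this]
    linarith
  exact le_of_mul_le_mul_left h5 (norm_pos_iff.2 ha0)

theorem no_path (F : Polynomial GaussianInt) (hF : 0 < F.natDegree) (D W : ℝ)
    (z : ℕ → GaussianInt) (hinj : Function.Injective z) (hirr : ∀ n, Irreducible (z n))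
    (hstep : ∀ n, ‖GaussianInt.toComplex (z (n + 1)) - GaussianInt.toComplex (z n)‖ ≤ D)
    (hnear : ∀ n, ∃ t : ℝ, 0 ≤ t ∧
      ‖GaussianInt.toComplex (z n) - (F.map GaussianInt.toComplex).eval (t : ℂ)‖ ≤ W) : False := by
  choose t ht0 htW using hnear
  set P := F.map GaussianInt.toComplex with hP
  have hPdeg : 0 < P.natDegree := by
    rw [hP, natDegree_map_eq_of_injective (fun x y h => by simpa using h)]
    exact hF
  obtain ⟨T, hT⟩ := cone P hPdeg
  have htop : ∀ B : ℝ, ∀ᶠ n in atTop, B < t n := by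
    intro B
    have hc : Continuous (fun x : ℝ => ‖P.eval (x : ℂ)‖) :=
      (P.continuous.comp Complex.continuous_ofReal).norm
    obtain ⟨M, hM⟩ := (isCompact_Icc (a := (0 : ℝ)) (b := B)).bddAbove_image hc.continuousOn
    have hfin := finite_ball z hinj (W + M)
    have hcof : ∀ᶠ n in cofinite, n ∉ {n : ℕ | ‖(GaussianInt.toComplex (z n))‖ ≤ W + M} :=
      hfin.eventually_cofinite_notMem
    rw [Nat.cofinite_eq_atTop] at hcof
    filter_upwards [hcof] with n hn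
    by_contra h
    push Not at h
    apply hn
    have h1 : ‖P.eval ((t n : ℝ) : ℂ)‖ ≤ M := hM ⟨t n, ⟨ht0 n, h⟩, rfl⟩
    show ‖(GaussianInt.toComplex (z n))‖ ≤ W + M
    have h2 : GaussianInt.toComplex (z n) =
        (GaussianInt.toComplex (z n) - P.eval ((t n : ℝ) : ℂ)) + P.eval ((t n : ℝ) : ℂ) := by ring
    rw [h2]
    refine (norm_add_le _ _).trans ?_
    exact add_le_add (htW n) h1
  obtain ⟨n1, hn1⟩ := eventually_atTop.1 (htop T)
  set R : ℝ := W + 2 * (D + 2 * W) with hR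
  obtain ⟨N, hNmem, hNgt⟩ := (disc_poly F hF ⌈R ^ 2⌉).exists_gt ⌈t n1⌉₊
  have htN : t n1 < (N : ℝ) := lt_of_le_of_lt (Nat.le_ceil _) (by exact_mod_cast hNgt)
  obtain ⟨m0, hm0⟩ := eventually_atTop.1 (htop (N : ℝ))
  have hex : ∃ k : ℕ, (N : ℝ) < t (n1 + k) := ⟨m0, hm0 _ (by omega)⟩
  classical
  set k := Nat.find hex with hk
  have hk1 : (N : ℝ) < t (n1 + k) := Nat.find_spec hex
  have hkpos : k ≠ 0 := by
    intro h
    rw [h, add_zero] at hk1
    exact absurd htN (not_lt.2 hk1.le)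
  obtain ⟨j, hj⟩ := Nat.exists_eq_succ_of_ne_zero hkpos
  have hjn : ¬ (N : ℝ) < t (n1 + j) := Nat.find_min hex (by omega)
  push Not at hjn
  have hk2 : (N : ℝ) < t (n1 + j + 1) := by
    have : n1 + k = n1 + j + 1 := by omega
    rw [← this]
    exact hk1
  set n := n1 + j with hn
  have hTn : T ≤ t n := (hn1 n (by omega)).le
  have h1 := hT (t n) (N : ℝ) (t (n + 1)) hTn hjn hk2.le
  have h2 : ‖P.eval ((t (n + 1) : ℝ) : ℂ) - P.eval ((t n : ℝ) : ℂ)‖ ≤ D + 2 * W := by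
    have h3 : P.eval ((t (n + 1) : ℝ) : ℂ) - P.eval ((t n : ℝ) : ℂ) =
        (-(GaussianInt.toComplex (z (n + 1)) - P.eval ((t (n + 1) : ℝ) : ℂ))) +
        (GaussianInt.toComplex (z (n + 1)) - GaussianInt.toComplex (z n)) +
        (GaussianInt.toComplex (z n) - P.eval ((t n : ℝ) : ℂ)) := by ring
    rw [h3]
    refine (norm_add₃_le).trans ?_
    rw [norm_neg]
    have := htW (n + 1)
    have := htW n
    have := hstep n
    linarith
  have hEN : P.eval (((N : ℕ) : ℝ) : ℂ) = GaussianInt.toComplex (F.eval (N : GaussianInt)) := by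
    rw [hP, Complex.ofReal_natCast, eval_natCast_map]
  have h4 : ‖GaussianInt.toComplex (z n - F.eval (N : GaussianInt))‖ ≤ R := by
    rw [map_sub, ← hEN]
    have h5 : GaussianInt.toComplex (z n) - P.eval (((N : ℕ) : ℝ) : ℂ) =
        (GaussianInt.toComplex (z n) - P.eval ((t n : ℝ) : ℂ)) -
        (P.eval (((N : ℕ) : ℝ) : ℂ) - P.eval ((t n : ℝ) : ℂ)) := by ring
    rw [h5]
    refine (norm_sub_le _ _).trans ?_
    have := htW n
    rw [hR]
    linarith
  refine hNmem (z n) ?_ (hirr n)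
  have h6 : ((Zsqrtd.norm (z n - F.eval (N : GaussianInt)) : ℤ) : ℝ) =
      ‖GaussianInt.toComplex (z n - F.eval (N : GaussianInt))‖ ^ 2 := by
    rw [GaussianInt.intCast_real_norm, Complex.normSq_eq_norm_sq]
  have h7 : ‖GaussianInt.toComplex (z n - F.eval (N : GaussianInt))‖ ^ 2 ≤ R ^ 2 :=
    pow_le_pow_left₀ (norm_nonneg _) h4 2
  have h8 : ((Zsqrtd.norm (z n - F.eval (N : GaussianInt)) : ℤ) : ℝ) ≤ ((⌈R ^ 2⌉ : ℤ) : ℝ) := by
    rw [h6]
    exact h7.trans (Int.le_ceil _)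
  exact_mod_cast h8

end Vale.Agent.P015
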