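import Mathlib

/-! P015: a bounded-step walk on Gaussian primes cannot stay near the real axis. -/
namespace P015

/-- the product of all norms `a²+b²`, `2 ≤ a ≤ k+2`, `|b| ≤ H` -/
noncomputable def L (k H : ℕ) : ℤ :=
  ∏ a ∈ Finset.Icc (2 : ℤ) (k + 2), ∏ b ∈ Finset.Icc (-(H : ℤ)) H, (a ^ 2 + b ^ 2)

theorem L_pos (k H : ℕ) : 1 ≤ L k H := by
  unfold L
  have : 0 < ∏ a ∈ Finset.Icc (2 : ℤ) (k + 2), ∏ b ∈ Finset.Icc (-(H : ℤ)) H, (a ^ 2 + b ^ 2) := by
    refine Finset.prod_pos fun a ha => Finset.prod_pos fun b _ => ?_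
    have := (Finset.mem_Icc.1 ha).1
    nlinarith [sq_nonneg b]
  omega

theorem L_ge (k H : ℕ) : (4 : ℤ) ^ (2 * H + 1) ≤ L k H := by
  unfold L
  have hmem : (2 : ℤ) ∈ Finset.Icc (2 : ℤ) (k + 2) := by
    rw [Finset.mem_Icc]; constructor <;> omega
  rw [← Finset.mul_prod_erase _ _ hmem]
  have h1 : (4 : ℤ) ^ (2 * H + 1) ≤ ∏ b ∈ Finset.Icc (-(H : ℤ)) H, ((2 : ℤ) ^ 2 + b ^ 2) := by
    have hcard : (Finset.Icc (-(H : ℤ)) H).card = 2 * H + 1 := by
      rw [Int.card_Icc]; omega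
    calc (4 : ℤ) ^ (2 * H + 1) = ∏ b ∈ Finset.Icc (-(H : ℤ)) H, (4 : ℤ) := by
          rw [Finset.prod_const, hcard]
      _ ≤ _ := by
          refine Finset.prod_le_prod (fun _ _ => by norm_num) fun b _ => ?_
          nlinarith [sq_nonneg b]
  have h2 : 1 ≤ ∏ a ∈ (Finset.Icc (2 : ℤ) (k + 2)).erase 2,
      ∏ b ∈ Finset.Icc (-(H : ℤ)) H, (a ^ 2 + b ^ 2) := by
    have : 0 < ∏ a ∈ (Finset.Icc (2 : ℤ) (k + 2)).erase 2,
        ∏ b ∈ Finset.Icc (-(H : ℤ)) H, (a ^ 2 + b ^ 2) := by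
      refine Finset.prod_pos fun a ha => Finset.prod_pos fun b _ => ?_
      have := (Finset.mem_Icc.1 (Finset.mem_of_mem_erase ha)).1
      nlinarith [sq_nonneg b]
    omega
  nlinarith [pow_pos (by norm_num : (0 : ℤ) < 4) (2 * H + 1)]

theorem L_le (k H : ℕ) : (L k H : ℤ) ≤ ((H : ℤ) + 3) ^ (2 * (k + 2) * ((k + 1) * (2 * H + 1))) := by
  unfold L
  have hcard : (Finset.Icc (-(H : ℤ)) H).card = 2 * H + 1 := by
    rw [Int.card_Icc]; omega
  have hcard2 : (Finset.Icc (2 : ℤ) (k + 2)).card = k + 1 := by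
    rw [Int.card_Icc]; omega
  have hb : ∀ a ∈ Finset.Icc (2 : ℤ) (k + 2), ∀ b ∈ Finset.Icc (-(H : ℤ)) H,
      a ^ 2 + b ^ 2 ≤ ((H : ℤ) + 3) ^ (2 * (k + 2)) := by
    intro a ha b hb
    obtain ⟨ha1, ha2⟩ := Finset.mem_Icc.1 ha
    obtain ⟨hb1, hb2⟩ := Finset.mem_Icc.1 hb
    have h1 : a ^ 2 ≤ ((k : ℤ) + 2) ^ 2 := by nlinarith
    have h2 : b ^ 2 ≤ (H : ℤ) ^ 2 := by nlinarith
    have h3 : ((k : ℤ) + 2) ≤ ((H : ℤ) + 3) ^ (k + 1) := by
      have h4 : (k + 2 : ℕ) ≤ 2 ^ (k + 1) := by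
        have := Nat.lt_two_pow_self (n := k + 1); omega
      have h5 : (2 : ℤ) ^ (k + 1) ≤ ((H : ℤ) + 3) ^ (k + 1) :=
        pow_le_pow_left₀ (by norm_num) (by omega) _
      have h6 : ((k + 2 : ℕ) : ℤ) ≤ ((2 ^ (k + 1) : ℕ) : ℤ) := by exact_mod_cast h4
      push_cast at h6
      linarith
    have h7 : a ^ 2 + b ^ 2 ≤ (((k : ℤ) + 2) * ((H : ℤ) + 3)) ^ 2 := by
      have : (0 : ℤ) ≤ k := by positivity
      have : (0 : ℤ) ≤ H := by positivity
      nlinarith [mul_nonneg (show (0:ℤ) ≤ k by positivity) (show (0:ℤ) ≤ H by positivity),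
        mul_nonneg (mul_nonneg (show (0:ℤ) ≤ k by positivity) (show (0:ℤ) ≤ H by positivity))
        (mul_nonneg (show (0:ℤ) ≤ k by positivity) (show (0:ℤ) ≤ H by positivity)),
        mul_nonneg (mul_nonneg (show (0:ℤ) ≤ k by positivity) (show (0:ℤ) ≤ H by positivity))
        (show (0:ℤ) ≤ H by positivity), mul_nonneg (mul_nonneg (show (0:ℤ) ≤ k by positivity)
        (show (0:ℤ) ≤ k by positivity)) (show (0:ℤ) ≤ H by positivity)]
    have h8 : ((k : ℤ) + 2) * ((H : ℤ) + 3) ≤ ((H : ℤ) + 3) ^ (k + 2) := by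
      rw [pow_succ]
      exact mul_le_mul_of_nonneg_right h3 (by positivity)
    calc a ^ 2 + b ^ 2 ≤ (((k : ℤ) + 2) * ((H : ℤ) + 3)) ^ 2 := h7
      _ ≤ (((H : ℤ) + 3) ^ (k + 2)) ^ 2 := pow_le_pow_left₀ (by positivity) h8 2
      _ = ((H : ℤ) + 3) ^ (2 * (k + 2)) := by rw [← pow_mul]; ring_nf
  calc ∏ a ∈ Finset.Icc (2 : ℤ) (k + 2), ∏ b ∈ Finset.Icc (-(H : ℤ)) H, (a ^ 2 + b ^ 2)
      ≤ ∏ a ∈ Finset.Icc (2 : ℤ) (k + 2), ∏ b ∈ Finset.Icc (-(H : ℤ)) H,
          ((H : ℤ) + 3) ^ (2 * (k + 2)) := by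
        refine Finset.prod_le_prod (fun a ha => Finset.prod_nonneg fun b _ => by positivity)
          fun a ha => Finset.prod_le_prod (fun b _ => by positivity) fun b hb' => hb a ha b hb'
    _ = ((H : ℤ) + 3) ^ (2 * (k + 2) * ((k + 1) * (2 * H + 1))) := by
        rw [Finset.prod_const, Finset.prod_const, hcard, hcard2, ← pow_mul, ← pow_mul]
        congr 1
        ring

/-- the block to the right of `L` contains no Gaussian prime -/
theorem block (k H : ℕ) {x : GaussianInt} (hx : Irreducible x)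
    (h1 : L k H + 2 ≤ x.re) (h2 : x.re ≤ L k H + (k + 2)) (h3 : |x.im| ≤ H) : False := by
  set a : ℤ := x.re - L k H with ha
  have ha2 : 2 ≤ a := by omega
  let y : GaussianInt := ⟨a, x.im⟩
  have hdvdZ : (a ^ 2 + x.im ^ 2) ∣ L k H := by
    unfold L
    refine dvd_trans ?_ (Finset.dvd_prod_of_mem _
      (Finset.mem_Icc.2 ⟨ha2, by omega⟩ : a ∈ Finset.Icc (2 : ℤ) (k + 2)))
    exact Finset.dvd_prod_of_mem (fun b : ℤ => a ^ 2 + b ^ 2)
      (Finset.mem_Icc.2 ⟨(abs_le.1 h3).1, (abs_le.1 h3).2⟩)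
  have hy : y ∣ ((L k H : ℤ) : GaussianInt) := by
    obtain ⟨m, hm⟩ := hdvdZ
    refine ⟨star y * (m : GaussianInt), ?_⟩
    apply Zsqrtd.ext
    · rw [Zsqrtd.re_intCast, hm]
      simp [y, Zsqrtd.re_mul, Zsqrtd.im_mul]
      ring
    · rw [Zsqrtd.im_intCast]
      simp [y, Zsqrtd.re_mul, Zsqrtd.im_mul]
      ring
  have hxy : x = ((L k H : ℤ) : GaussianInt) + y := by
    apply Zsqrtd.ext <;> simp [y, ha]
  have hyx : y ∣ x := by
    rw [hxy]; exact dvd_add hy dvd_rfl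
  obtain ⟨w, hw⟩ := hyx
  have hynu : ¬ IsUnit y := by
    intro hu
    have := (Zsqrtd.norm_eq_one_iff' (by norm_num : (-1 : ℤ) ≤ 0) y).2 hu
    rw [Zsqrtd.norm_def] at this
    simp only [y] at this
    nlinarith [sq_nonneg x.im]
  have hwu : IsUnit w := (hx.isUnit_or_isUnit hw).resolve_left hynu
  have hnw := (Zsqrtd.norm_eq_one_iff' (by norm_num : (-1 : ℤ) ≤ 0) w).2 hwu
  have hnorm : Zsqrtd.norm x = Zsqrtd.norm y := by
    rw [hw, Zsqrtd.norm_mul, hnw, mul_one]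
  rw [Zsqrtd.norm_def, Zsqrtd.norm_def] at hnorm
  simp only [y] at hnorm
  have hLp := L_pos k H
  nlinarith

theorem num_ineq (k H : ℕ) {r m : ℤ} (hr : r ≤ L k H + (k + 2)) (hm : (H : ℤ) + 1 ≤ |m|)
    (h : Real.exp (4 * ((k : ℝ) + 3) ^ 2 * (|(m : ℝ)| + 1) * Real.log (|(m : ℝ)| + 2)) ≤ (r : ℝ)) :
    False := by
  have hmR : (H : ℝ) + 1 ≤ |(m : ℝ)| := by
    have : (((H : ℤ) + 1 : ℤ) : ℝ) ≤ ((|m| : ℤ) : ℝ) := by exact_mod_cast hm
    push_cast at this
    exact this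
  have hH0 : (0 : ℝ) ≤ H := by positivity
  have h1 : Real.exp (4 * ((k : ℝ) + 3) ^ 2 * ((H : ℝ) + 2) * Real.log ((H : ℝ) + 3)) ≤ (r : ℝ) := by
    refine le_trans (Real.exp_le_exp.2 ?_) h
    have hlog : Real.log ((H : ℝ) + 3) ≤ Real.log (|(m : ℝ)| + 2) :=
      Real.log_le_log (by positivity) (by linarith)
    have hlog0 : 0 ≤ Real.log ((H : ℝ) + 3) := Real.log_nonneg (by linarith)
    refine mul_le_mul ?_ hlog hlog0 (by positivity)
    exact mul_le_mul_of_nonneg_left (by linarith) (by positivity)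
  have h2 : Real.exp (4 * ((k : ℝ) + 3) ^ 2 * ((H : ℝ) + 2) * Real.log ((H : ℝ) + 3))
      = ((H : ℝ) + 3) ^ (4 * (k + 3) ^ 2 * (H + 2)) := by
    have e : (4 * ((k : ℝ) + 3) ^ 2 * ((H : ℝ) + 2)) = ((4 * (k + 3) ^ 2 * (H + 2) : ℕ) : ℝ) := by
      push_cast; ring
    rw [e, Real.exp_nat_mul, Real.exp_log (by positivity)]
  rw [h2] at h1
  have h3 : ((H : ℤ) + 3) ^ (4 * (k + 3) ^ 2 * (H + 2)) ≤ r := by exact_mod_cast h1
  have h4 := L_le k H
  set B : ℤ := (H : ℤ) + 3 with hB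
  have hB3 : (3 : ℤ) ≤ B := by omega
  have h5 : ((k : ℤ) + 2) < B ^ (k + 2) := by
    have h6 : (k + 2 : ℕ) < 2 ^ (k + 2) := Nat.lt_two_pow_self
    have h7 : (2 : ℤ) ^ (k + 2) ≤ B ^ (k + 2) := pow_le_pow_left₀ (by norm_num) (by omega) _
    have h8 : ((k + 2 : ℕ) : ℤ) < ((2 ^ (k + 2) : ℕ) : ℤ) := by exact_mod_cast h6
    push_cast at h8
    linarith
  set E : ℕ := 2 * (k + 2) * ((k + 1) * (2 * H + 1)) with hE
  have h9 : B ^ E ≤ B ^ (E + (k + 2)) := pow_le_pow_right₀ (by omega) (by omega)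
  have h10 : B ^ (k + 2) ≤ B ^ (E + (k + 2)) := pow_le_pow_right₀ (by omega) (by omega)
  have h11 : 2 * B ^ (E + (k + 2)) ≤ B ^ (E + (k + 2) + 1) := by
    rw [pow_succ]
    have : (0 : ℤ) < B ^ (E + (k + 2)) := by positivity
    nlinarith
  have h12 : B ^ (E + (k + 2) + 1) ≤ B ^ (4 * (k + 3) ^ 2 * (H + 2)) := by
    refine pow_le_pow_right₀ (by omega) ?_
    rw [hE]
    nlinarith [Nat.zero_le (k * H), Nat.zero_le (k * k * H), Nat.zero_le (k * k)]
  linarith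

theorem core {k : ℕ} {z : ℕ → GaussianInt} (hinj : Function.Injective z)
    (hirr : ∀ n, Irreducible (z n)) (hre : ∀ n, |(z (n + 1)).re - (z n).re| ≤ k) {N : ℕ}
    (hcon : ∀ n, N ≤ n → Real.exp (4 * ((k : ℝ) + 3) ^ 2 * (|((z n).im : ℝ)| + 1)
      * Real.log (|((z n).im : ℝ)| + 2)) ≤ |((z n).re : ℝ)|) (hpos : 0 < (z N).re) : False := by
  -- crude bound
  have hcrude : ∀ n, N ≤ n → ((k : ℤ) + 1 ≤ |(z n).re|) ∧ |(z n).im| ≤ |(z n).re| := by
    intro n hn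
    have h1 := hcon n hn
    have hlog : (1 / 2 : ℝ) ≤ Real.log (|((z n).im : ℝ)| + 2) := by
      have h2 : Real.log 2 ≤ Real.log (|((z n).im : ℝ)| + 2) :=
        Real.log_le_log (by norm_num) (by linarith [abs_nonneg ((z n).im : ℝ)])
      linarith [Real.log_two_gt_d9]
    have ha := abs_nonneg ((z n).im : ℝ)
    have hk0 : (0 : ℝ) ≤ k := by positivity
    have h3 : ((k : ℝ) + 1) + |((z n).im : ℝ)| ≤ 4 * ((k : ℝ) + 3) ^ 2 * (|((z n).im : ℝ)| + 1)
        * Real.log (|((z n).im : ℝ)| + 2) := by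
      have h4 : 4 * ((k : ℝ) + 3) ^ 2 * (|((z n).im : ℝ)| + 1) * (1 / 2)
          ≤ 4 * ((k : ℝ) + 3) ^ 2 * (|((z n).im : ℝ)| + 1)
        * Real.log (|((z n).im : ℝ)| + 2) := mul_le_mul_of_nonneg_left hlog (by positivity)
      refine le_trans ?_ h4
      nlinarith [mul_nonneg hk0 ha, mul_nonneg (mul_nonneg hk0 hk0) ha]
    have h5 := Real.add_one_le_exp (4 * ((k : ℝ) + 3) ^ 2 * (|((z n).im : ℝ)| + 1)
        * Real.log (|((z n).im : ℝ)| + 2))
    constructor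
    · have : (((k : ℤ) + 1 : ℤ) : ℝ) ≤ ((|(z n).re| : ℤ) : ℝ) := by
        push_cast; linarith
      exact_mod_cast this
    · have : ((|(z n).im| : ℤ) : ℝ) ≤ ((|(z n).re| : ℤ) : ℝ) := by
        push_cast; linarith
      exact_mod_cast this
  -- positivity
  have hp : ∀ j, 0 < (z (N + j)).re := by
    intro j
    induction j with
    | zero => exact hpos
    | succ j ih =>
      have h1 := (hcrude (N + j) (by omega)).1
      have h2 := (abs_le.1 (hre (N + j))).1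
      rw [abs_of_pos ih] at h1
      have e : N + (j + 1) = N + j + 1 := by ring
      rw [e]
      omega
  -- unboundedness
  have hub : ∀ T : ℤ, ∃ j, T ≤ (z (N + j)).re := by
    intro T
    by_contra hT
    push Not at hT
    have hfin : (Set.Finite {x : GaussianInt | |x.re| ≤ |T| ∧ |x.im| ≤ |T|}) := by
      have h1 : ((Set.Icc (-|T|) |T|) ×ˢ (Set.Icc (-|T|) |T|) : Set (ℤ × ℤ)).Finite :=
        (Set.finite_Icc _ _).prod (Set.finite_Icc _ _)
      refine (h1.image fun p : ℤ × ℤ => (⟨p.1, p.2⟩ : GaussianInt)).subset ?_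
      rintro x ⟨hx1, hx2⟩
      exact ⟨(x.re, x.im), ⟨⟨(abs_le.1 hx1).1, (abs_le.1 hx1).2⟩,
        ⟨(abs_le.1 hx2).1, (abs_le.1 hx2).2⟩⟩, rfl⟩
    refine (Set.infinite_of_injective_forall_mem (f := fun j => z (N + j)) ?_ ?_) hfin
    · intro i j hij
      have := hinj hij
      omega
    · intro j
      have h1 := hT j
      have h2 := hp j
      have h3 := (hcrude (N + j) (by omega)).2
      have h4 : |(z (N + j)).re| ≤ |T| := by
        rw [abs_of_pos h2]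
        exact h1.le.trans (le_abs_self T)
      exact ⟨h4, h3.trans h4⟩
  -- choose the block
  let H : ℕ := (z N).re.toNat
  have hH : (H : ℤ) = (z N).re := Int.toNat_of_nonneg hpos.le
  have hLH : (z N).re < L k H + 2 := by
    have h1 := L_ge k H
    have h2 : (H : ℕ) < 4 ^ (2 * H + 1) := by
      have a1 : H < 4 ^ H := Nat.lt_pow_self (by norm_num)
      have a2 : 4 ^ H ≤ 4 ^ (2 * H + 1) := Nat.pow_le_pow_right (by norm_num) (by omega)
      omega
    have h3 : (H : ℤ) < (4 : ℤ) ^ (2 * H + 1) := by exact_mod_cast h2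
    linarith
  have hex := hub (L k H + 2)
  classical
  have hj := Nat.find_spec hex
  set j := Nat.find hex with hjdef
  have hj0 : j ≠ 0 := by
    intro h0
    rw [h0] at hj
    simp only [add_zero] at hj
    linarith
  obtain ⟨i, hi⟩ := Nat.exists_eq_succ_of_ne_zero hj0
  have hprev : (z (N + i)).re < L k H + 2 := by
    have := Nat.find_min hex (m := i) (by rw [← hjdef, hi]; exact Nat.lt_succ_self i)
    exact not_le.1 this
  have hup : (z (N + j)).re ≤ L k H + (k + 2) := by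
    have h2 := (abs_le.1 (hre (N + i))).2
    have e : N + j = N + i + 1 := by rw [hi]; rfl
    rw [e]
    omega
  refine block k H (hirr (N + j)) hj hup ?_
  by_contra hbig
  push Not at hbig
  have h1 := hcon (N + j) (by omega)
  have h2 := hp j
  have h3 : |((z (N + j)).re : ℝ)| = ((z (N + j)).re : ℝ) := abs_of_pos (by exact_mod_cast h2)
  rw [h3] at h1
  exact num_ineq k H hup (by omega) h1

/-- the walk statement -/
theorem walk (D : ℝ) : ∃ C : ℝ, 0 < C ∧ ∀ z : ℕ → GaussianInt, Function.Injective z →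
    (∀ n, Irreducible (z n)) →
    (∀ n, ‖GaussianInt.toComplex (z (n + 1)) - GaussianInt.toComplex (z n)‖ ≤ D) →
    ∀ N, ∃ n ≥ N, |((z n).re : ℝ)|
      < Real.exp (C * (|((z n).im : ℝ)| + 1) * Real.log (|((z n).im : ℝ)| + 2)) := by
  set k : ℕ := ⌈D⌉₊ with hk
  have hDk : D ≤ k := Nat.le_ceil D
  refine ⟨4 * ((k : ℝ) + 3) ^ 2, by positivity, ?_⟩
  intro z hinj hirr hstep N
  by_contra hcon
  push Not at hcon
  -- step bound
  have hre : ∀ n, |(z (n + 1)).re - (z n).re| ≤ k := by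
    intro n
    have h1 := (Complex.abs_re_le_norm _).trans ((hstep n).trans hDk)
    rw [Complex.sub_re, ← GaussianInt.intCast_re, ← GaussianInt.intCast_re] at h1
    exact_mod_cast h1
  have hne : (z N).re ≠ 0 := by
    intro h0
    have h1 := hcon N le_rfl
    rw [h0] at h1
    simp only [Int.cast_zero, abs_zero] at h1
    exact absurd h1 (not_le.2 (Real.exp_pos _))
  rcases lt_or_gt_of_ne hne with hneg | hpos
  · refine core (k := k) (z := fun n => -z n) (N := N) (fun a b h => hinj (neg_injective h)) ?_ ?_ ?_ ?_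
    · intro n
      exact (Associated.neg_right (Associated.refl (z n))).irreducible (hirr n)
    · intro n
      simp only [Zsqrtd.re_neg]
      rw [← abs_neg]
      have := hre n
      convert this using 2
      ring
    · intro n hn
      simp only [Zsqrtd.re_neg, Zsqrtd.im_neg, Int.cast_neg, abs_neg]
      exact hcon n hn
    · simp only [Zsqrtd.re_neg]; omega
  · exact core hinj hirr hre (fun n hn => hcon n hn) hpos

end P015
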